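import Vale.Agent.P071.Main

open MeasureTheory Set
open scoped ContDiff

namespace Vale.Agent.Results.P071.HotSpots

open Vale.Agent.P071

theorem result (Ω : Set ℂ) (hopen : IsOpen Ω) (hbdd : Bornology.IsBounded Ω)
    (hsc : IsSimplyConnected Ω) (hLip : IsLipschitzDomain Ω)
    (u : ℂ → ℝ) (hu : IsEigenfunction Ω u) (hsmooth : ContDiffOn ℝ ∞ u Ω)
    (hcont : ContinuousOn u (closure Ω)) (hne : ∃ x ∈ Ω, u x ≠ 0) :
    ∃ m M : ℝ, IsLeast (u '' frontier Ω) m ∧ IsGreatest (u '' frontier Ω) M ∧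
      ∀ x ∈ Ω, m < u x ∧ u x < M :=
  hot_spots hopen hbdd hsc hLip hu hsmooth hcont hne

end Vale.Agent.Results.P071.HotSpots
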